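import Vale.Agent.P365.T1.H3.DensS

/-!
# P365 T1: the good law has positive density on every `[-a, a]`, `a < lam`.
-/

set_option linter.all false

namespace P365T1

open MeasureTheory P365T1.OneVar P365T1.Isl

theorem densGe_nuS_all {lam l : ℝ} (hl : 0 < l) (h : 2 * l ≤ lam) (a : ℝ) (ha : a < lam) :
    ∃ κ : ℝ, 0 < κ ∧ DensGe κ a (nuS lam l) := by
  have hlam : 0 < lam := by linarith
  have hm : max a 0 < lam := max_lt ha hlam
  refine ⟨(2 * (lam - l))⁻¹ * PhiS l (lam - max a 0), ?_,
    (densGe_nuS' hl h (le_max_right a 0)).mono le_rfl (le_max_left a 0)⟩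
  exact mul_pos (inv_pos.2 (by linarith)) (PhiS_pos hl (by linarith))

end P365T1
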