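import Vale.Agent.P365.ISL.H3.PLaws

/-!
# P365 T1: density bounds `DensLe`, `DensGe` for the good law `nuS`, bumps and uniform windows.
-/

set_option linter.all false

namespace P365T1

open MeasureTheory Set P365T1.Bump P365T1.OneVar P365T1.Isl
open scoped ENNReal

theorem densLe_of {ν : Measure ℝ} {ρ : ℝ → ℝ} {R : ℝ}
    (dens : ν = volume.withDensity fun v => ENNReal.ofReal (ρ v)) (le : ∀ v, ρ v ≤ R) :
    DensLe R ν := by
  unfold DensLe
  rw [dens, ← withDensity_const]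
  exact withDensity_mono (Filter.Eventually.of_forall fun v => ENNReal.ofReal_le_ofReal (le v))

theorem densGe_of {ν : Measure ℝ} {ρ : ℝ → ℝ} {κ a : ℝ}
    (dens : ν = volume.withDensity fun v => ENNReal.ofReal (ρ v))
    (ge : ∀ v, |v| ≤ a → κ ≤ ρ v) : DensGe κ a ν := by
  unfold DensGe
  rw [dens, ← withDensity_const, ← withDensity_indicator measurableSet_Icc]
  refine withDensity_mono (Filter.Eventually.of_forall fun v => ?_)
  by_cases hv : v ∈ Icc (-a) a
  · rw [indicator_of_mem hv]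
    exact ENNReal.ofReal_le_ofReal (ge v (abs_le.2 ⟨hv.1, hv.2⟩))
  · rw [indicator_of_notMem hv]
    exact bot_le

theorem DensLe.mono {ν : Measure ℝ} {D D' : ℝ} (h : DensLe D ν) (hD : D ≤ D') : DensLe D' ν := by
  unfold DensLe at *
  refine h.trans ?_
  gcongr

theorem DensGe.mono {ν : Measure ℝ} {κ κ' a a' : ℝ} (h : DensGe κ a ν) (hκ : κ' ≤ κ)
    (ha : a' ≤ a) : DensGe κ' a' ν := by
  unfold DensGe at *
  refine le_trans ?_ h
  have h1 : (volume : Measure ℝ).restrict (Icc (-a') a') ≤ volume.restrict (Icc (-a) a) :=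
    Measure.restrict_mono (Icc_subset_Icc (by linarith) ha) le_rfl
  calc ENNReal.ofReal κ' • (volume : Measure ℝ).restrict (Icc (-a') a')
      ≤ ENNReal.ofReal κ • (volume : Measure ℝ).restrict (Icc (-a') a') := by gcongr
    _ ≤ _ := by gcongr

/-- regular laws have bounded density -/
theorem OneVar.GLaw.densLe {ν : Measure ℝ} {ρ : ℝ → ℝ} {L δ m κ₀ R η₀ : ℝ}
    (G : GLaw ν ρ L δ m κ₀ R η₀) : DensLe R ν := densLe_of G.dens G.le

theorem densLe_nuS {lam l : ℝ} (hl : 0 < l) (h : l < lam) :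
    DensLe ((2 * (lam - l))⁻¹) (nuS lam l) := (glaw_nuS hl h).densLe

theorem densLe_nuB {c l : ℝ} (hl : 0 < l) : DensLe (15 / (16 * l)) (nuB c l) :=
  (glaw_nuB (c := c) hl le_rfl).densLe

/-- the bump has mass one -/
theorem PhiS_full {l t : ℝ} (hl : 0 < l) (ht : 2 * l ≤ t) : PhiS l t = 1 := by
  unfold PhiS
  have h1 : ∫ z in Ioc 0 t, rhoB l l z = ∫ z, rhoB l l z := by
    refine setIntegral_eq_integral_of_forall_compl_eq_zero fun z hz => ?_
    refine rhoB_eq_zero hl fun h => hz ⟨?_, ?_⟩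
    · linarith [h.1]
    · linarith [h.2]
  rw [h1]
  exact integral_rhoB_one hl

/-- on `[-(lam - 2 l), lam - 2 l]` the good law is uniform with density `1 / (2 (lam - l))` -/
theorem rhoS_mid {lam l : ℝ} (hl : 0 < l) (h : 2 * l ≤ lam) {v : ℝ} (hv : |v| ≤ lam - 2 * l) :
    rhoS lam l v = (2 * (lam - l))⁻¹ := by
  rw [(shape_rhoS hl h).eq v]
  show (2 * (lam - l))⁻¹ * PhiS l (lam - |v - 0|) = _
  rw [sub_zero, PhiS_full hl (by linarith), mul_one]

theorem densGe_nuS {lam l : ℝ} (hl : 0 < l) (h : 2 * l ≤ lam) :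
    DensGe ((2 * (lam - l))⁻¹) (lam - 2 * l) (nuS lam l) :=
  densGe_of (nuS_eq hl (by linarith)) fun v hv => (rhoS_mid hl h hv).ge

/-- lower bound on the whole of `[-a, a]`, `a < lam` -/
theorem densGe_nuS' {lam l a : ℝ} (hl : 0 < l) (h : 2 * l ≤ lam) (ha : 0 ≤ a) :
    DensGe ((2 * (lam - l))⁻¹ * PhiS l (lam - a)) a (nuS lam l) :=
  densGe_of (nuS_eq hl (by linarith)) fun v hv => by
    rw [(shape_rhoS hl h).eq v]
    show _ ≤ (2 * (lam - l))⁻¹ * PhiS l (lam - |v - 0|)
    rw [sub_zero]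
    refine mul_le_mul_of_nonneg_left (PhiS_mono hl (by linarith)) ?_
    exact inv_nonneg.2 (by linarith)

theorem PhiS_pos {l t : ℝ} (hl : 0 < l) (ht : 0 < t) : 0 < PhiS l t := by
  -- halving from a point where it is one
  have key : ∀ n : ℕ, ∀ t : ℝ, 2 * l ≤ 2 ^ n * t → 0 < t → (1 / 8 : ℝ) ^ n ≤ PhiS l t := by
    intro n
    induction n with
    | zero =>
      intro t ht _
      rw [pow_zero, PhiS_full hl (by linarith)]
    | succ n ih =>
      intro t ht h0
      have h1 := ih (2 * t) (by rw [pow_succ] at ht; linarith) (by linarith)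
      have h2 := PhiS_half hl (t := 2 * t) (by linarith)
      have e : 2 * t / 2 = t := by ring
      rw [e] at h2
      calc (1 / 8 : ℝ) ^ (n + 1) = 1 / 8 * (1 / 8) ^ n := by ring
        _ ≤ 1 / 8 * PhiS l (2 * t) := by linarith
        _ ≤ _ := h2
  obtain ⟨n, hn⟩ := pow_unbounded_of_one_lt (2 * l / t) (one_lt_two (α := ℝ))
  have h1 := key n t (by rw [div_lt_iff₀ ht] at hn; exact hn.le) ht
  exact lt_of_lt_of_le (by positivity) h1

end P365T1
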