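import Vale.Agent.P365.T1.H3.DensS
import Vale.Agent.P365.ISL.Isl

/-!
# P365 T1: the insulated site lemma for the good law `nuS lam l` at the centre and at the ports.

No condition linking `l` and `lam'`: only `2 l ≤ lam` and `lam' < lam`.
-/

set_option linter.all false

namespace P365T1.ISL

open P365L P365O P365T1 P365T1.OneVar Matrix Complex MeasureTheory
open scoped ENNReal

/-- the good law has density bounded below on every `[-a, a]`, `a < lam` -/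
theorem densGe_nuS_ex {lam l a : ℝ} (hl : 0 < l) (h : 2 * l ≤ lam) (h0 : 0 ≤ a) (h1 : a < lam) :
    ∃ κ : ℝ, 0 < κ ∧ DensGe κ a (nuS lam l) := by
  refine ⟨(2 * (lam - l))⁻¹ * Isl.PhiS l (lam - a), ?_, densGe_nuS' hl h h0⟩
  exact mul_pos (inv_pos.2 (by linarith)) (PhiS_pos hl (by linarith))

/-- **the insulated site lemma for the good law** -/
theorem isl_nuS {lam l lam' E X : ℝ} (hl : 0 < l) (h2 : 2 * l ≤ lam) (h0 : 0 ≤ lam')
    (h1 : lam' < lam) (hE : |E| ≤ X) :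
    ∃ C : ℝ, 1 ≤ C ∧ ∀ (ι : Type) [Fintype ι] [DecidableEq ι] (A : Matrix ι ι ℝ), A.IsSymm →
      ∀ (ν : ι → Measure ℝ) [∀ i, IsProbabilityMeasure (ν i)] (e : ι → ℝ), (∀ x, 0 < e x) →
      ∀ (y : ι) (S : Finset ι), y ∉ S → S.Nonempty → (∀ z ∈ S, ν z = nuS lam l) →
      ν y = nuS lam l →
      ∀ T x0 dl q : ℝ, 0 ≤ T → (∀ z ∈ S, Real.exp (-T) ≤ e z) → (∀ z ∈ S, e z ≤ 1 / 2) →
      0 ≤ dl → |x0| ≤ X → |E + x0| ≤ lam' →
      (∀ᵐ v ∂(Measure.pi ν), Row A E e y S (x0 : ℂ) dl v) →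
      1 ≤ q → C * (((S.card : ℝ) + 1) * (1 + T)) ≤ q ^ 2 →
      dl * (C * (((S.card : ℝ) + 1) ^ 4 * q ^ 5)) ≤ 1 → e y + 1 / q ≤ 1 / C →
      ∀ f : ι → ℝ, ∫⁻ v, ENNReal.ofReal (Yf A (WV E e v) f y) ∂(Measure.pi ν) ≤
        ENNReal.ofReal (C * (((S.card : ℝ) + 1) * Real.sqrt (e y + 1 / q))) *
          ∫⁻ v, ENNReal.ofReal (Mf A (WV E e v) f y) ∂(Measure.pi ν) := by
  have hll : l < lam := by linarith
  haveI := isProbabilityMeasure_nuS hl hll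
  obtain ⟨κy, hκy, hD⟩ := densGe_nuS_ex (a := (lam + lam') / 2) hl h2 (by linarith) (by linarith)
  obtain ⟨C, hC, h⟩ := isl (glaw_nuS hl hll) (Isl.plaw_nuS hl h2) (κy := κy)
    (ay := (lam + lam') / 2) (X := X) (g := (lam - lam') / 2) (E := E) hκy hE (by linarith)
  refine ⟨C, hC, ?_⟩
  intro ι _ _ A hA ν _ e he y S hyS hSne hνS hνy T x0 dl q hT heT he2 hdl hx0 hlam' hrow hq1 hqT
    hdq hey f
  exact h ι A hA ν e he y S hyS hSne hνS (by rw [hνy]; exact hD) T x0 dl q hT heT he2 hdl hx0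
    (by linarith) hrow hq1 hqT hdq hey f

end P365T1.ISL
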